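import Mathlib

set_option linter.all false

/-!
Growth of sequences, and of alternating sums along a change of rings.
-/

namespace Vale.Agent.N177

open Filter Topology Asymptotics Finset

/-- `u n / n ^ c` tends to `x` -/
def Lim (c : ℕ) (x : ℝ) (u : ℕ → ℝ) : Prop := Tendsto (fun n : ℕ => u n / (n : ℝ) ^ c) atTop (𝓝 x)

namespace Lim

variable {c : ℕ} {x y : ℝ} {u v : ℕ → ℝ}

theorem add (hu : Lim c x u) (hv : Lim c y v) : Lim c (x + y) fun n => u n + v n :=
  (Tendsto.add hu hv).congr fun n => (add_div _ _ _).symm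

theorem mul (a : ℝ) (hu : Lim c x u) : Lim c (a * x) fun n => a * u n :=
  (Tendsto.const_mul a hu).congr fun n => (mul_div_assoc _ _ _).symm

theorem congr (hu : Lim c x u) (h : ∀ n, v n = u n) : Lim c x v := by
  rw [show v = u from funext h]; exact hu

theorem val (hu : Lim c x u) (h : y = x) : Lim c y u := h ▸ hu

theorem squeeze (hv : Lim c 0 v) (h : ∀ n, |u n| ≤ v n) : Lim c 0 u := by
  refine squeeze_zero_norm (fun n => ?_) hv
  rw [Real.norm_eq_abs, abs_div, abs_of_nonneg (show (0 : ℝ) ≤ (n : ℝ) ^ c by positivity)]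
  exact div_le_div_of_nonneg_right (h n) (by positivity)

theorem ratio (c : ℕ) : Tendsto (fun n : ℕ => (((n + 1 : ℕ) : ℝ) / n) ^ c) atTop (𝓝 1) := by
  have h1 : Tendsto (fun n : ℕ => ((n + 1 : ℕ) : ℝ) / n) atTop (𝓝 1) := by
    have h2 : Tendsto (fun n : ℕ => 1 + ((n : ℝ))⁻¹) atTop (𝓝 (1 + 0)) :=
      tendsto_const_nhds.add tendsto_inv_atTop_nhds_zero_nat
    rw [add_zero] at h2
    refine h2.congr' ?_
    filter_upwards [eventually_gt_atTop 0] with n hn
    have : (n : ℝ) ≠ 0 := by positivity
    push_cast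
    field_simp
  simpa using h1.pow c

theorem shift (hu : Lim c x u) : Lim c x fun n => u (n + 1) := by
  have h := ((tendsto_add_atTop_iff_nat 1).2 hu).mul (ratio c)
  rw [mul_one] at h
  refine h.congr fun n => ?_
  have : ((n + 1 : ℕ) : ℝ) ^ c ≠ 0 := by positivity
  rw [div_pow, div_mul_div_cancel₀ this]

theorem unshift (hu : Lim c x fun n => u (n + 1)) : Lim c x u := by
  refine (tendsto_add_atTop_iff_nat 1).1 ?_
  have h := Tendsto.div hu (ratio c) one_ne_zero
  rw [div_one] at h
  refine h.congr' ?_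
  filter_upwards [eventually_gt_atTop 0] with n hn
  have : (n : ℝ) ^ c ≠ 0 := by positivity
  simp only [Pi.div_apply]
  rw [div_pow, div_div_div_cancel_right₀ this]

theorem const (a : ℝ) : Lim (c + 1) 0 fun _ => a :=
  tendsto_const_nhds.div_atTop ((tendsto_pow_atTop c.succ_ne_zero).comp tendsto_natCast_atTop_atTop)

theorem iff_o : Lim c 0 u ↔ u =o[atTop] fun n : ℕ => (n : ℝ) ^ c := by
  refine (isLittleO_iff_tendsto' ?_).symm
  filter_upwards [eventually_gt_atTop 0] with n hn h
  exact absurd h (by positivity)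

theorem choose (c : ℕ) : Lim c (1 / c.factorial) fun n => (n.choose c : ℝ) := by
  have hz : ∀ᶠ n : ℕ in atTop, ((n : ℝ) ^ c / c.factorial) ≠ 0 := by
    filter_upwards [eventually_gt_atTop 0] with n hn
    positivity
  have h := ((isEquivalent_iff_tendsto_one hz).1 (isEquivalent_choose c)).div_const
    (c.factorial : ℝ)
  refine h.congr fun n => ?_
  have : (c.factorial : ℝ) ≠ 0 := by positivity
  simp only [Pi.div_apply]
  rw [div_div, div_mul_cancel₀ _ this]

theorem sum_choose (c n : ℕ) : ∑ i ∈ range n, (i.choose c : ℝ) = (n.choose (c + 1) : ℝ) := by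
  induction n with
  | zero => simp
  | succ n ih => rw [sum_range_succ, ih, Nat.choose_succ_succ']; push_cast; ring

theorem sum_zero (hu : Lim c 0 u) : Lim (c + 1) 0 fun n => ∑ i ∈ range n, u i := by
  have h1 := (iff_o.1 hu).trans_isBigO (isTheta_choose c).symm.isBigO
  have h2 := h1.sum_range (fun n => by positivity) (by
    simp only [sum_choose]
    exact tendsto_natCast_atTop_atTop.comp (tendsto_atTop_mono' atTop (by
      filter_upwards [eventually_ge_atTop (c + 1)] with n hn
      obtain ⟨m, rfl⟩ := Nat.exists_eq_add_of_le hn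
      show c + 1 + m - (c + 1) ≤ _
      rw [Nat.add_sub_cancel_left]
      clear hn
      induction m with
      | zero => exact Nat.zero_le _
      | succ m ih =>
        rw [← add_assoc, Nat.choose_succ_succ']
        have := Nat.choose_pos (show c ≤ c + 1 + m by omega)
        omega) (tendsto_sub_atTop_nat (c + 1))))
  simp only [sum_choose] at h2
  exact iff_o.2 (h2.trans_isBigO (isTheta_choose (c + 1)).isBigO)

theorem sum (hu : Lim c x u) : Lim (c + 1) (x / (c + 1)) fun n => ∑ i ∈ range n, u i := by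
  have hc : (c.factorial : ℝ) ≠ 0 := by positivity
  have h1 := (hu.add ((choose c).mul (-(x * c.factorial)))).val (y := 0) (by field_simp; ring)
  refine ((h1.sum_zero.add ((choose (c + 1)).mul (x * c.factorial))).val ?_).congr fun n => ?_
  · rw [Nat.factorial_succ]
    push_cast
    field_simp
    ring
  · rw [sum_add_distrib, ← mul_sum, sum_choose]
    ring

theorem of_diff {w : ℕ → ℝ} (h : Lim c x fun n => w (n + 1) - w n) :
    Lim (c + 1) (x / (c + 1)) w :=
  ((h.sum.add (const (w 0))).val (add_zero _).symm).congr fun n => by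
    rw [sum_range_sub]; ring

end Lim

/-- alternating sums -/
def alt (t : ℕ → ℝ) (n : ℕ) : ℝ := ∑ i ∈ range (n + 1), (-1) ^ i * t i

theorem alt_succ (t : ℕ → ℝ) (n : ℕ) : alt t (n + 1) = alt t n + (-1) ^ (n + 1) * t (n + 1) :=
  sum_range_succ _ _

/-- the terms are small, the alternating sums grow like `x n ^ c` -/
def Asy (c : ℕ) (x : ℝ) (t : ℕ → ℝ) : Prop := Lim c 0 t ∧ Lim c x (alt t)

theorem Asy.step {c : ℕ} {x : ℝ} {t r ρ a b : ℕ → ℝ} (hρ : ρ 0 = 0) (h0 : r 0 = t 0)
    (h1 : ∀ n, t n = ρ (n + 1) + a n) (h2 : ∀ n, r (n + 1) = a n + b n)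
    (h3 : ∀ n, t (n + 1) = b n + ρ n) (pρ : ∀ n, 0 ≤ ρ n) (pa : ∀ n, 0 ≤ a n) (pb : ∀ n, 0 ≤ b n)
    (h : Asy c x r) : Asy (c + 1) (x / (2 * (c + 1))) t := by
  have pt : ∀ n, 0 ≤ t n := fun n => by rw [h1]; exact add_nonneg (pρ _) (pa _)
  have e1 : ∀ n, alt r n = (-1) ^ n * (t n - ρ n) := by
    intro n
    induction n with
    | zero => simp [alt, hρ, h0]
    | succ n ih =>
      rw [alt_succ, ih, h2, pow_succ]
      linear_combination (-1) ^ n * h1 n + (-1) ^ n * h3 n
  have le : ∀ n, t (n + 1) + t n ≤ ∑ i ∈ range n, r (i + 1 + 1) + (t 1 + t 0) := by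
    intro n
    induction n with
    | zero => simp
    | succ n ih =>
      rw [sum_range_succ]
      have := h1 n
      have := h2 (n + 1)
      have := h3 (n + 1)
      have := pa n
      have := pa (n + 1)
      linarith
  have ht : Lim (c + 1) 0 t :=
    ((h.1.shift.shift.sum_zero.add (Lim.const (t 1 + t 0))).val (add_zero _).symm).squeeze
      fun n => by
        rw [abs_of_nonneg (pt n)]
        have := le n
        have := pt (n + 1)
        linarith
  have sgn : ∀ (n : ℕ) (y : ℝ), |(-1 : ℝ) ^ n * y| = |y| := fun n y => by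
    rw [abs_mul, abs_pow, abs_neg, abs_one, one_pow, one_mul]
  have ha : Lim c 0 fun n => (-1 : ℝ) ^ (n + 1) * a (n + 1) :=
    h.1.shift.shift.squeeze fun n => by
      rw [sgn, abs_of_nonneg (pa _), h2]
      have := pb (n + 1)
      linarith
  have hw : Lim (c + 1) (x / (c + 1)) fun n => alt t (n + 1) + alt t n :=
    Lim.of_diff (((h.2.shift.shift.add ha).val (add_zero _).symm).congr fun n => by
      rw [e1, alt_succ t (n + 1), alt_succ t n, h1 (n + 1)]
      ring)
  have hs : Lim (c + 1) 0 fun n => (-1 : ℝ) ^ n * t (n + 1) :=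
    ht.shift.squeeze fun n => by rw [sgn, abs_of_nonneg (pt _)]
  refine ⟨ht, (((hw.add hs).mul (1 / 2)).val ?_).congr fun n => ?_⟩
  · field_simp
    ring
  · rw [alt_succ]
    ring

theorem Asy.base {t : ℕ → ℝ} {d : ℕ} (h : ∀ n, d < n → t n = 0) : Asy 0 (alt t d) t := by
  constructor
  · refine tendsto_const_nhds.congr' ?_
    filter_upwards [eventually_gt_atTop d] with n hn
    rw [h n hn, zero_div]
  · refine tendsto_const_nhds.congr' ?_
    filter_upwards [eventually_ge_atTop d] with n hn
    rw [pow_zero, div_one]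
    induction n, hn using Nat.le_induction with
    | base => rfl
    | succ n hn ih => rw [alt_succ, h _ (by omega), mul_zero, add_zero, ih]

/-- if the terms are of smaller order then the limit vanishes -/
theorem Asy.zero {c : ℕ} {x : ℝ} {t : ℕ → ℝ} (h : Asy (c + 1) x t) (ht : Lim c 0 t) : x = 0 := by
  have h1 : Lim c 0 fun n => (-1 : ℝ) ^ n * t n := by
    have h2 : Lim c 0 fun n => |t n| := by
      have := Tendsto.abs ht
      rw [abs_zero] at this
      refine this.congr fun n => ?_
      rw [abs_div, abs_of_nonneg (show (0 : ℝ) ≤ (n : ℝ) ^ c by positivity)]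
    exact h2.squeeze fun n => by rw [abs_mul, abs_pow, abs_neg, abs_one, one_pow, one_mul]
  exact tendsto_nhds_unique h.2 h1.sum_zero.shift

end Vale.Agent.N177
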