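import Mathlib
import Vale.Agent.P177.Bd4.B15
import Vale.Agent.N177.Asy

set_option linter.all false

/-!
Change of rings along a regular sequence, dimensions under completion, and projective dimension.
-/

namespace Vale.Agent.N177

open CategoryTheory TensorProduct Function IsLocalRing RingTheory.Sequence Vale.Agent.P177
open scoped Pointwise

universe u

/-- the lengths of the Tor modules -/
noncomputable def lenT (R : Type u) [CommRing R] (M N : Type u) [AddCommGroup M] [Module R M]
    [AddCommGroup N] [Module R N] (i : ℕ) : ℝ := ((Module.length R (TorM R i M N)).toNat : ℝ)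

theorem asy_hyper {R A : Type u} [CommRing R] [CommRing A] [Algebra R A] {f : R}
    (H : IsHypersurface R A f)
    (M N : Type u) [AddCommGroup M] [Module R M] [Module A M] [IsScalarTower R A M]
    [AddCommGroup N] [Module R N] [Module A N] [IsScalarTower R A N]
    (hfin : ∀ n, Module.length R (TorM R n M N) ≠ ⊤) {c : ℕ} {x : ℝ} (h : Asy c x (lenT R M N)) :
    (∀ n, Module.length A (TorM A n M N) ≠ ⊤) ∧ Asy (c + 1) (x / (2 * (c + 1))) (lenT A M N) := by
  obtain ⟨ρ, a, b, hρ, h0, h1, h2, h3⟩ := H.exists_rho M N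
  have ha : ∀ n, a n ≠ ⊤ := fun n h => hfin (n + 1) (by rw [h2, h, top_add])
  have hb : ∀ n, b n ≠ ⊤ := fun n h => hfin (n + 1) (by rw [h2, h, add_top])
  have key : ∀ n, Module.length A (TorM A n M N) ≠ ⊤ ∧ ρ n ≠ ⊤ := by
    intro n
    induction n with
    | zero => exact ⟨h0 ▸ hfin 0, by rw [hρ]; exact ENat.zero_ne_top⟩
    | succ n ih =>
      refine ⟨?_, fun h => ih.1 (by rw [h1, h, top_add])⟩
      rw [h3]
      exact WithTop.add_ne_top.2 ⟨hb n, ih.2⟩
  refine ⟨fun n => (key n).1, Asy.step (ρ := fun n => ((ρ n).toNat : ℝ))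
    (a := fun n => ((a n).toNat : ℝ)) (b := fun n => ((b n).toNat : ℝ)) (by simp [hρ])
    (by rw [lenT, lenT, h0]) (fun n => ?_) (fun n => ?_) (fun n => ?_) (fun _ => by positivity)
    (fun _ => by positivity) (fun _ => by positivity) h⟩
  · rw [lenT, h1, ENat.toNat_add (key _).2 (ha _)]
    push_cast
    rfl
  · rw [lenT, h2, ENat.toNat_add (ha _) (hb _)]
    push_cast
    rfl
  · rw [lenT, h3, ENat.toNat_add (hb _) (key _).2]
    push_cast
    rfl

theorem asy_ci (B : Type u) [CommRing B] (M N : Type u) [AddCommGroup M] [Module B M]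
    [AddCommGroup N] [Module B N] (y : ℝ) (k : ℕ) : ∀ (R : Type u) [CommRing R] [Algebra R B]
    [Module R M] [IsScalarTower R B M] [Module R N] [IsScalarTower R B N] (fs : List R) (c : ℕ),
    fs.length = k → IsWeaklyRegular R fs → Surjective (algebraMap R B) →
    RingHom.ker (algebraMap R B) = Ideal.ofList fs →
    (∀ n, Module.length R (TorM R n M N) ≠ ⊤) →
    Asy c (y / (2 ^ c * c.factorial)) (lenT R M N) →
    Asy (c + k) (y / (2 ^ (c + k) * (c + k).factorial)) (lenT B M N) := by
  induction k with
  | zero =>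
    intro R _ _ _ _ _ _ fs c hl _ hs hk _ h
    rw [List.length_eq_zero_iff.1 hl, Ideal.ofList_nil] at hk
    have e : R ≃ₗ[R] B := LinearEquiv.ofBijective (Algebra.linearMap R B)
      ⟨(RingHom.injective_iff_ker_eq_bot (algebraMap R B)).2 hk, hs⟩
    have : Module.Flat R B := Module.Flat.of_linearEquiv e.symm
    have h1 : lenT B M N = lenT R M N := by
      funext n
      rw [lenT, lenT, length_tor_bc n (isBaseChange_id_of_surjective hs M) N fun b => ?_]
      obtain ⟨s, rfl⟩ := hs b
      exact ⟨s, fun t => algebraMap_smul B s t⟩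
    rwa [h1]
  | succ k ih =>
    intro R _ _ _ _ _ _ fs c hl hreg hs hk hfin h
    obtain ⟨f, gs, rfl⟩ := List.exists_cons_of_length_eq_add_one hl
    rw [isWeaklyRegular_cons_iff] at hreg
    have hle : Ideal.span {f} ≤ RingHom.ker (algebraMap R B) := by
      rw [hk, Ideal.ofList_cons]; exact le_sup_left
    letI : Algebra (R ⧸ Ideal.span {f}) B := (Ideal.Quotient.lift _ (algebraMap R B) hle).toAlgebra
    letI : Module (R ⧸ Ideal.span {f}) M := Module.compHom M (algebraMap _ B)
    letI : Module (R ⧸ Ideal.span {f}) N := Module.compHom N (algebraMap _ B)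
    haveI : IsScalarTower (R ⧸ Ideal.span {f}) B M :=
      IsScalarTower.of_algebraMap_smul fun _ _ => rfl
    haveI : IsScalarTower (R ⧸ Ideal.span {f}) B N :=
      IsScalarTower.of_algebraMap_smul fun _ _ => rfl
    haveI : IsScalarTower R (R ⧸ Ideal.span {f}) M :=
      IsScalarTower.of_algebraMap_smul fun r m => algebraMap_smul B r m
    haveI : IsScalarTower R (R ⧸ Ideal.span {f}) N :=
      IsScalarTower.of_algebraMap_smul fun r m => algebraMap_smul B r m
    have H : IsHypersurface R (R ⧸ Ideal.span {f}) f :=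
      ⟨hreg.1, Ideal.Quotient.mk_surjective, Ideal.mk_ker⟩
    obtain ⟨h1, h2⟩ := asy_hyper H M N hfin h
    have e : QuotSMulTop f R ≃ₗ[R] R ⧸ Ideal.span {f} :=
      Submodule.quotEquivOfEq _ _ (by
        rw [← Submodule.ideal_span_singleton_smul, smul_eq_mul, Ideal.mul_top])
    have h3 := ih (R ⧸ Ideal.span {f}) (gs.map (algebraMap R _)) (c + 1)
      (by simpa using hl)
      ((isWeaklyRegular_map_algebraMap_iff _ _ gs).2 ((e.isWeaklyRegular_congr gs).1 hreg.2))
      (Ideal.Quotient.lift_surjective_of_surjective _ hle hs)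
      (by
        refine (Ideal.ker_quotient_lift _ hle).trans ?_
        rw [hk, Ideal.ofList_cons, Ideal.map_sup, Ideal.map_quotient_self, bot_sup_eq,
          Ideal.map_ofList]
        rfl) h1 (by
        convert h2 using 1
        rw [Nat.factorial_succ]
        push_cast
        have : (c.factorial : ℝ) ≠ 0 := by positivity
        field_simp
        ring)
    rwa [show c + 1 + k = c + (k + 1) by omega] at h3

theorem dim_le_of_map {A C : Type u} [CommRing A] [CommRing C] [IsLocalRing A] [IsLocalRing C]
    [IsNoetherianRing A] [IsNoetherianRing C] (φ : A →+* C)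
    (h : (maximalIdeal A).map φ = maximalIdeal C) : ringKrullDim C ≤ ringKrullDim A := by
  classical
  obtain ⟨s, hs, hc⟩ := (maximalIdeal A).exists_finset_card_eq_height_of_isNoetherianRing
  have h1 : maximalIdeal A ≤ (Ideal.span (s : Set A)).radical := by
    rw [Ideal.radical_eq_sInf]
    refine le_sInf ?_
    rintro P ⟨hP, hPp⟩
    exact hs.2 ⟨hPp, hP⟩ (le_maximalIdeal hPp.ne_top)
  have h2 : maximalIdeal C ∈ (Ideal.span ((s.image φ : Finset C) : Set C)).minimalPrimes := by
    rw [Finset.coe_image, ← Ideal.map_span]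
    refine ⟨⟨inferInstance, h ▸ Ideal.map_mono hs.1.2⟩, fun P hP _ => ?_⟩
    rw [← h]
    exact ((Ideal.map_mono h1).trans (Ideal.map_radical_le φ)).trans
      (hP.1.radical_le_iff.2 hP.2)
  have h3 := Ideal.height_le_card_of_mem_minimalPrimes_span_finset h2
  rw [← IsLocalRing.maximalIdeal_height_eq_ringKrullDim,
    ← IsLocalRing.maximalIdeal_height_eq_ringKrullDim, ← hc]
  exact_mod_cast h3.trans (by exact_mod_cast Finset.card_image_le)

theorem supportDim_bc {A C : Type u} [CommRing A] [CommRing C] [IsLocalRing A] [IsLocalRing C]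
    [IsNoetherianRing A] [IsNoetherianRing C] [Algebra A C] [Module.Flat A C]
    (h : (maximalIdeal A).map (algebraMap A C) = maximalIdeal C)
    (M : Type u) [AddCommGroup M] [Module A M] [Module.Finite A M] :
    Module.supportDim C (C ⊗[A] M) = Module.supportDim A M := by
  refine le_antisymm ?_ (supportDim_le_baseChange A C h M)
  by_cases hX : Subsingleton (C ⊗[A] M)
  · rw [Module.supportDim_eq_bot_of_subsingleton]
    exact bot_le
  rw [not_subsingleton_iff_nontrivial] at hX
  have hle : Module.annihilator A M ≤ (Module.annihilator C (C ⊗[A] M)).comap (algebraMap A C) := by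
    intro a ha
    rw [Ideal.mem_comap, Module.mem_annihilator]
    intro z
    rw [algebraMap_smul]
    induction z using TensorProduct.induction_on with
    | zero => exact smul_zero _
    | tmul c m => rw [← TensorProduct.tmul_smul, Module.mem_annihilator.1 ha m, tmul_zero]
    | add x y hx hy => rw [smul_add, hx, hy, add_zero]
  have hJ : Module.annihilator C (C ⊗[A] M) ≠ ⊤ := by
    rw [Ne, Module.annihilator_eq_top_iff, not_subsingleton_iff_nontrivial]
    exact hX
  have hI : Module.annihilator A M ≠ ⊤ := fun h1 => hJ (by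
    rw [h1, top_le_iff, Ideal.comap_eq_top_iff] at hle
    exact hle)
  haveI := Ideal.Quotient.nontrivial_iff.2 hI
  haveI := Ideal.Quotient.nontrivial_iff.2 hJ
  haveI : IsLocalRing (A ⧸ Module.annihilator A M) :=
    IsLocalRing.of_surjective' _ Ideal.Quotient.mk_surjective
  haveI : IsLocalRing (C ⧸ Module.annihilator C (C ⊗[A] M)) :=
    IsLocalRing.of_surjective' _ Ideal.Quotient.mk_surjective
  rw [Module.supportDim_eq_ringKrullDim_quotient_annihilator,
    Module.supportDim_eq_ringKrullDim_quotient_annihilator]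
  refine dim_le_of_map (Ideal.quotientMap _ (algebraMap A C) hle) ?_
  rw [← map_maximalIdeal_of_surjective _ (Ideal.Quotient.mk_surjective
      (I := Module.annihilator A M)), Ideal.map_map, Ideal.quotientMap_comp_mk, ← Ideal.map_map, h,
    map_maximalIdeal_of_surjective _ Ideal.Quotient.mk_surjective]

theorem tor_of_pd {A : Type u} [CommRing A] (N : Type u) [AddCommGroup N] [Module A N] (n : ℕ) :
    ∀ (M : Type u) [AddCommGroup M] [Module A M],
      HasProjectiveDimensionLT (ModuleCat.of A M) (n + 1) →
      ∀ i, n < i → Subsingleton (TorM A i M N) := by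
  induction n with
  | zero =>
    intro M _ _ h i hi
    have h1 : Projective (ModuleCat.of A M) := projective_iff_hasProjectiveDimensionLT_one.2 h
    have h2 : Module.Projective A M := (IsProjective.iff_projective M).2 h1
    obtain ⟨j, rfl⟩ := Nat.exists_eq_add_one_of_ne_zero hi.ne'
    exact tor_subsingleton_of_flat j
  | succ n ih =>
    intro M _ _ h i hi
    obtain ⟨F, K, _, _, _, _, f, g, hF, hf, hg, hex⟩ := exists_cover A M
    have hS : (ModuleCat.shortComplexOfCompEqZero f g hex.linearMap_comp_eq_zero).ShortExact :=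
      ModuleCat.shortComplex_shortExact _ hex hf hg
    have h1 := (hS.hasProjectiveDimensionLT_X₃_iff n
      ((IsProjective.iff_projective F).1 inferInstance)).1 h
    obtain ⟨j, rfl⟩ : ∃ j, i = j + 2 := ⟨i - 2, by omega⟩
    obtain ⟨e⟩ := tor_shift f g hf hg hex N j
    have := ih K h1 (j + 1) (by omega)
    exact e.injective.subsingleton

end Vale.Agent.N177
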