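import Mathlib
import Vale.Agent.P177.H391.Full
import Vale.Agent.N177.Chg

set_option linter.all false

/-!
Intersection multiplicities over complete intersections.
-/

namespace Vale.Agent.N177

open CategoryTheory TensorProduct Function IsLocalRing RingTheory.Sequence Vale.Agent.P177

universe u

theorem alt_lenT (R : Type u) [CommRing R] (M N : Type u) [AddCommGroup M] [Module R M]
    [AddCommGroup N] [Module R N] (d : ℕ) :
    alt (lenT R M N) d = (eulerTor R (d + 1) M N : ℝ) := by
  unfold alt lenT eulerTor
  push_cast
  rfl

/-- quotients of regular local rings by regular sequences -/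
theorem quot_main {R B : Type u} [CommRing R] [IsRegularLocalRing R] [CommRing B] [IsLocalRing B]
    [IsNoetherianRing B] (φ : R →+* B) (fs : List R) (hreg : IsRegular R fs) (hs : Surjective φ)
    (hk : RingHom.ker φ = Ideal.ofList fs) (M N : Type u) [AddCommGroup M] [Module B M]
    [Module.Finite B M] [AddCommGroup N] [Module B N] [Module.Finite B N]
    (hlen : Module.length B (M ⊗[B] N) ≠ ⊤) :
    Module.supportDim B M + Module.supportDim B N ≤ ringKrullDim B + fs.length ∧
    ∃ k : ℕ, Asy fs.length (k / (2 ^ fs.length * fs.length.factorial)) (lenT B M N) ∧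
      (0 < k ↔ Module.supportDim B M + Module.supportDim B N = ringKrullDim B + fs.length) ∧
      (fs.length = 1 → ∀ n : ℕ, ringKrullDim B < n → (k : ℤ) = (-1) ^ n *
        (((Module.length B (TorM B n M N)).toNat : ℤ) -
          (Module.length B (TorM B (n + 1) M N)).toNat)) := by
  letI : Algebra R B := φ.toAlgebra
  letI : Module R M := Module.compHom M φ
  letI : Module R N := Module.compHom N φ
  haveI : IsScalarTower R B M := IsScalarTower.of_algebraMap_smul fun _ _ => rfl
  haveI : IsScalarTower R B N := IsScalarTower.of_algebraMap_smul fun _ _ => rfl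
  have hs' : Surjective (algebraMap R B) := hs
  haveI : Module.Finite R B := Module.Finite.of_surjective (Algebra.linearMap R B) hs
  haveI : Module.Finite R M := Module.Finite.trans B M
  haveI : Module.Finite R N := Module.Finite.trans B N
  obtain ⟨d, hd⟩ := exists_nat_eq_ringKrullDim R
  have hlenR : Module.length R (M ⊗[R] N) ≠ ⊤ := by
    rwa [length_tensor_baseChange hs' (isBaseChange_id_of_surjective hs' M) N]
  have hdim : ringKrullDim B + fs.length = d := by
    rw [← hd, ← ringKrullDim_add_length_eq_ringKrullDim_of_isRegular fs hreg, ← hk,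
      ringKrullDim_eq_of_ringEquiv (RingHom.quotientKerEquivOfSurjective hs)]
  have hnn : 0 ≤ eulerTor R (d + 1) M N := H391.nonNeg hd M N hlenR
  have hvan : ∀ i, d < i → Subsingleton (TorM R i M N) := fun i hi =>
    regular_tor_vanish R d hd M N i hi
  rw [hdim, ← supportDim_eq_of_surjective hs' M, ← supportDim_eq_of_surjective hs' N]
  obtain ⟨k, hkk⟩ := Int.eq_ofNat_of_zero_le hnn
  refine ⟨H391.dim_le hd M N hlenR, k, ?_, ?_, fun h1 n hn => ?_⟩
  · have h0 := Asy.base (t := lenT R M N) (d := d) fun n hn => by
      have := hvan n hn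
      rw [lenT, Module.length_eq_zero]
      simp
    rw [alt_lenT, hkk] at h0
    have := asy_ci B M N k fs.length R fs 0 rfl hreg.1 hs hk
      (fun n => tor_length_ne_top n M N hlenR) (by simpa using h0)
    rwa [zero_add] at this
  · rw [← H391.pos_iff hd M N hlenR, hkk]
    exact Int.natCast_pos.symm
  · obtain ⟨f, rfl⟩ := List.length_eq_one_iff.1 h1
    have H : IsHypersurface R B f :=
      ⟨((isWeaklyRegular_cons_iff R f []).1 hreg.1).1, hs, hk.trans (Ideal.ofList_singleton f)⟩
    have hdn : d ≤ n := by
      obtain ⟨e, he⟩ := exists_nat_eq_ringKrullDim B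
      rw [he] at hdim hn
      have h2 : e + 1 = d := by exact_mod_cast hdim
      have h3 : e < n := by exact_mod_cast hn
      omega
    have := hvan (n + 1) (by omega)
    rw [← H.eulerTor_eq M N (fun i => tor_length_ne_top i M N hlen) n Module.length_eq_zero,
      eulerTor_shrink M N (d + 1) (n + 1) (by omega) fun j hj => hvan j hj, hkk]

/-- rings whose completion is such a quotient -/
theorem ci_main {A : Type u} [CommRing A] [IsLocalRing A] [IsNoetherianRing A] {R : Type u}
    [CommRing R] [IsRegularLocalRing R] (φ : R →+* AdicCompletion (maximalIdeal A) A)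
    (fs : List R) (hreg : IsRegular R fs) (hs : Surjective φ)
    (hk : RingHom.ker φ = Ideal.ofList fs) (M N : Type u) [AddCommGroup M] [Module A M]
    [Module.Finite A M] [AddCommGroup N] [Module A N] [Module.Finite A N]
    (hlen : Module.length A (M ⊗[A] N) ≠ ⊤) :
    Module.supportDim A M + Module.supportDim A N ≤ ringKrullDim A + fs.length ∧
    ∃ k : ℕ, Asy fs.length (k / (2 ^ fs.length * fs.length.factorial)) (lenT A M N) ∧
      (0 < k ↔ Module.supportDim A M + Module.supportDim A N = ringKrullDim A + fs.length) ∧
      (fs.length = 1 → ∀ n : ℕ, ringKrullDim A < n → (k : ℤ) = (-1) ^ n *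
        (((Module.length A (TorM A n M N)).toNat : ℤ) -
          (Module.length A (TorM A (n + 1) M N)).toNat)) := by
  let C := AdicCompletion (maximalIdeal A) A
  haveI : IsNoetherianRing C := isNoetherianRing_of_surjective _ _ φ hs
  have hloc : (maximalIdeal A).map (algebraMap A C) = maximalIdeal C :=
    (AdicCompletion.maximalIdeal_eq_map (R := A)).symm
  have ht : ∀ n, Module.length A (TorM A n M N) =
      Module.length C (TorM C n (C ⊗[A] M) (C ⊗[A] N)) := fun n =>
    length_tor_bc₂ hloc n (TensorProduct.isBaseChange A M C) (TensorProduct.isBaseChange A N C)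
  have hd : ringKrullDim C = ringKrullDim A := by
    rw [← Module.supportDim_self_eq_ringKrullDim, ← Module.supportDim_self_eq_ringKrullDim,
      ← supportDim_bc hloc A]
    exact (Module.supportDim_eq_of_equiv (AlgebraTensorModule.rid A C C)).symm
  have h := quot_main φ fs hreg hs hk (C ⊗[A] M) (C ⊗[A] N) (by
    rw [← (torZero _ _).length_eq, ← ht 0, (torZero M N).length_eq]
    exact hlen)
  have h1 : lenT C (C ⊗[A] M) (C ⊗[A] N) = lenT A M N := by
    funext n
    rw [lenT, lenT, ht]
  rw [supportDim_bc hloc M, supportDim_bc hloc N, h1] at h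
  simp only [ht, ← hd]
  exact h

end Vale.Agent.N177
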